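import Mathlib

/-!
Row 225, S0347: amplification by `2^r` slices (doubling in a finite abelian group).
-/

set_option autoImplicit false

namespace Crest.Agent.R225.L

open Finset

theorem pow_two_pow_le {x y : ℝ} (hx : 0 ≤ x) (h : x ≤ y ^ 2) (r : ℕ) :
    x ^ (2 ^ r) ≤ y ^ (2 ^ (r + 1)) := by
  have h1 : (2:ℕ) ^ (r + 1) = 2 * 2 ^ r := by rw [pow_succ, mul_comm]
  rw [h1, pow_mul]
  exact pow_le_pow_left₀ hx h _

theorem merge_sum {G : Type*} [AddCommGroup G] [Fintype G] [DecidableEq G] (A B : Finset G) :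
    ∑ v : G, ((A.filter (fun c => c - v ∈ B)).card : ℝ) = (A.card : ℝ) * B.card := by
  have h2 : ∀ v : G, ((A.filter (fun c => c - v ∈ B)).card : ℝ) =
      ∑ c ∈ A, if c - v ∈ B then (1:ℝ) else 0 := by
    intro v
    rw [← Finset.sum_filter, Finset.sum_const, nsmul_eq_mul, mul_one]
  simp only [h2]
  rw [Finset.sum_comm, Finset.card_eq_sum_ones A, Nat.cast_sum, Finset.sum_mul]
  refine Finset.sum_congr rfl fun c _ => ?_
  rw [← Finset.sum_filter, Finset.sum_const, nsmul_eq_mul, mul_one, Nat.cast_one, one_mul]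
  congr 1
  refine Finset.card_bij (fun v _ => c - v) (fun v h => (mem_filter.1 h).2) ?_ ?_
  · intro a _ b _ hab
    exact sub_right_injective hab
  · intro d hd
    exact ⟨c - d, mem_filter.2 ⟨mem_univ _, by simpa using hd⟩, by simp⟩

/-- one merge, simultaneously for finitely many pairs. -/
theorem merge_step {G : Type*} [AddCommGroup G] [Fintype G] [DecidableEq G] {ι : Type*} [Fintype ι]
    (A B : ι → Finset G) (q : ℝ) (hq : 0 ≤ q) (hA : ∀ p, ((A p).card : ℝ) ≤ q * Fintype.card G)
    (hB : ∀ p, ((B p).card : ℝ) ≤ q * Fintype.card G) :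
    ∃ v : G, ∀ p, (((A p).filter (fun c => c - v ∈ B p)).card : ℝ) ≤
      (Fintype.card ι * q ^ 2) * Fintype.card G := by
  have hG : (0:ℝ) < Fintype.card G := by
    have : 0 < Fintype.card G := Fintype.card_pos_iff.2 ⟨0⟩
    exact_mod_cast this
  have hex : ∃ v : G, ∑ p : ι, (((A p).filter (fun c => c - v ∈ B p)).card : ℝ) ≤
      (Fintype.card ι * q ^ 2) * Fintype.card G := by
    by_contra hcon
    push Not at hcon
    have h1 : ∑ _v : G, (Fintype.card ι * q ^ 2) * (Fintype.card G : ℝ) <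
        ∑ v : G, ∑ p : ι, (((A p).filter (fun c => c - v ∈ B p)).card : ℝ) :=
      Finset.sum_lt_sum_of_nonempty ⟨0, mem_univ _⟩ fun v _ => hcon v
    rw [Finset.sum_const, Finset.card_univ, nsmul_eq_mul, Finset.sum_comm] at h1
    have h2 : ∑ p : ι, ∑ v : G, (((A p).filter (fun c => c - v ∈ B p)).card : ℝ) ≤
        ∑ _p : ι, (q * (Fintype.card G : ℝ)) * (q * (Fintype.card G : ℝ)) := by
      refine Finset.sum_le_sum fun p _ => ?_
      rw [merge_sum]
      exact mul_le_mul (hA p) (hB p) (by positivity) (by positivity)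
    rw [Finset.sum_const, Finset.card_univ, nsmul_eq_mul] at h2
    have h3 : (Fintype.card G : ℝ) * ((Fintype.card ι * q ^ 2) * (Fintype.card G : ℝ)) =
        Fintype.card ι * ((q * (Fintype.card G : ℝ)) * (q * (Fintype.card G : ℝ))) := by ring
    rw [h3] at h1
    exact absurd (h1.trans_le h2) (lt_irrefl _)
  obtain ⟨v, hv⟩ := hex
  refine ⟨v, fun p => le_trans ?_ hv⟩
  exact Finset.single_le_sum (f := fun p => (((A p).filter (fun c => c - v ∈ B p)).card : ℝ))
    (fun _ _ => Nat.cast_nonneg _) (mem_univ p)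

open scoped Classical in
/-- The bad classes after adding `r` free shifts. -/
theorem amplify {G : Type*} [AddCommGroup G] [Fintype G] {Θ : Type*} [Fintype Θ] :
    ∀ (r : ℕ) (U : Θ → (Fin r → Bool) → Finset G) (q : ℝ), 0 ≤ q →
      (∀ τ ε, ((U τ ε).card : ℝ) ≤ q * Fintype.card G) →
      ∃ v : Fin r → G, ∀ τ,
        (((univ : Finset G).filter
          (fun c => ∀ ε : Fin r → Bool, c - ∑ k, (if ε k then v k else 0) ∈ U τ ε)).card : ℝ) ≤
          ((Fintype.card Θ : ℝ) * 2 ^ r * q) ^ (2 ^ r) * Fintype.card G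
  | 0, U, q, hq, hU => by
    refine ⟨fun i => i.elim0, fun τ => ?_⟩
    have hΘ : (1:ℝ) ≤ Fintype.card Θ := by
      have : 0 < Fintype.card Θ := Fintype.card_pos_iff.2 ⟨τ⟩
      exact_mod_cast this
    have h1 : ((univ : Finset G).filter
          (fun c => ∀ ε : Fin 0 → Bool, c - ∑ k, (if ε k then (fun i => i.elim0 : Fin 0 → G) k else 0) ∈ U τ ε)) ⊆
          U τ (fun i => i.elim0) := by
      intro c hc
      have := (mem_filter.1 hc).2 (fun i => i.elim0)
      simpa using this
    calc _ ≤ ((U τ (fun i => i.elim0)).card : ℝ) := by exact_mod_cast card_le_card h1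
      _ ≤ q * Fintype.card G := hU _ _
      _ ≤ _ := by
        simp only [pow_zero, mul_one, pow_one]
        have : 0 ≤ q * (Fintype.card G : ℝ) := by positivity
        nlinarith
  | r + 1, U, q, hq, hU => by
    obtain ⟨v₀, hv₀⟩ := merge_step (ι := Θ × (Fin r → Bool))
      (fun p => U p.1 (Fin.cons false p.2 : Fin (r + 1) → Bool))
      (fun p => U p.1 (Fin.cons true p.2 : Fin (r + 1) → Bool)) q hq
      (fun p => hU _ _) (fun p => hU _ _)
    have hq'0 : 0 ≤ (Fintype.card (Θ × (Fin r → Bool)) : ℝ) * q ^ 2 := by positivity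
    obtain ⟨v, hv⟩ := amplify r
      (fun τ ε' => (U τ (Fin.cons false ε' : Fin (r + 1) → Bool)).filter
        (fun c => c - v₀ ∈ U τ (Fin.cons true ε' : Fin (r + 1) → Bool)))
      _ hq'0 (fun τ ε' => hv₀ (τ, ε'))
    refine ⟨Fin.cons v₀ v, fun τ => ?_⟩
    have hsub : ((univ : Finset G).filter (fun c => ∀ ε : Fin (r + 1) → Bool,
          c - ∑ k, (if ε k then (Fin.cons v₀ v : Fin (r + 1) → G) k else 0) ∈ U τ ε)) ⊆
        ((univ : Finset G).filter
          (fun c => ∀ ε : Fin r → Bool, c - ∑ k, (if ε k then v k else 0) ∈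
            (U τ (Fin.cons false ε : Fin (r + 1) → Bool)).filter
              (fun c => c - v₀ ∈ U τ (Fin.cons true ε : Fin (r + 1) → Bool)))) := by
      intro c hc
      rw [mem_filter] at hc ⊢
      refine ⟨mem_univ _, fun ε' => ?_⟩
      have h1 := hc.2 (Fin.cons false ε')
      have h2 := hc.2 (Fin.cons true ε')
      rw [Fin.sum_univ_succ] at h1 h2
      simp only [Fin.cons_zero, Fin.cons_succ, Bool.false_eq_true, if_false, if_true, zero_add] at h1 h2
      rw [mem_filter]
      refine ⟨h1, ?_⟩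
      have h3 : c - (v₀ + ∑ k, (if ε' k then v k else 0)) = c - ∑ k, (if ε' k then v k else 0) - v₀ := by
        abel
      rw [← h3]; exact h2
    refine le_trans ?_ ((hv τ).trans ?_)
    · exact_mod_cast card_le_card hsub
    · refine mul_le_mul_of_nonneg_right ?_ (Nat.cast_nonneg _)
      refine pow_two_pow_le (by positivity) ?_ r
      rw [Fintype.card_prod, Fintype.card_fun, Fintype.card_bool, Fintype.card_fin]
      push_cast
      have h4 : ((Fintype.card Θ : ℝ) * 2 ^ (r + 1) * q) ^ 2 =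
          4 * ((Fintype.card Θ : ℝ) * 2 ^ r * ((Fintype.card Θ : ℝ) * 2 ^ r * q ^ 2)) := by
        ring
      have h5 : 0 ≤ (Fintype.card Θ : ℝ) * 2 ^ r * ((Fintype.card Θ : ℝ) * 2 ^ r * q ^ 2) := by
        positivity
      rw [h4]; linarith

end Crest.Agent.R225.L
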