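import Mathlib

/-!
Row 225, S0347: affine normalisation of a convex body (maximal simplex), the case of small
dimension, and the reduction of the theorem to normalised bodies in large dimension.
-/

set_option autoImplicit false

namespace Crest.Agent.R225.L

open MeasureTheory Matrix

/-- `K` is the translation cell of a lattice covering of density at most `D`. -/
def Cov (n : ℕ) (K : Set (Fin n → ℝ)) (D : ℝ) : Prop :=
  ∃ g : Matrix (Fin n) (Fin n) ℝ, g.det ≠ 0 ∧
    (∀ x : Fin n → ℝ, ∃ z : Fin n → ℤ, x - g.mulVec (fun i => (z i : ℝ)) ∈ K) ∧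
    (volume K).toReal / |g.det| ≤ D

theorem Cov.mono {n : ℕ} {K : Set (Fin n → ℝ)} {D D' : ℝ} (h : Cov n K D) (hD : D ≤ D') :
    Cov n K D' := by
  obtain ⟨g, h1, h2, h3⟩ := h
  exact ⟨g, h1, h2, h3.trans hD⟩

/-- the matrix of differences -/
def dmat {n : ℕ} (x : Fin (n + 1) → (Fin n → ℝ)) : Matrix (Fin n) (Fin n) ℝ :=
  Matrix.of fun i j => x j.succ i - x 0 i

theorem dmat_mulVec {n : ℕ} (x : Fin (n + 1) → (Fin n → ℝ)) (y : Fin n → ℝ) :
    x 0 + (dmat x).mulVec y = (1 - ∑ j, y j) • x 0 + ∑ j, y j • x j.succ := by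
  ext i
  simp only [Pi.add_apply, Matrix.mulVec, dotProduct, dmat, Matrix.of_apply, Pi.smul_apply,
    smul_eq_mul, Finset.sum_apply, sub_mul, Finset.sum_sub_distrib, Finset.sum_mul]
  have h1 : ∑ j, x 0 i * y j = ∑ j, y j * x 0 i := Finset.sum_congr rfl fun j _ => mul_comm _ _
  have h2 : ∑ j, x j.succ i * y j = ∑ j, y j * x j.succ i :=
    Finset.sum_congr rfl fun j _ => mul_comm _ _
  rw [h1, h2]
  ring

theorem continuous_dmat_det {n : ℕ} : Continuous fun x : Fin (n + 1) → (Fin n → ℝ) => |(dmat x).det| := by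
  refine Continuous.abs (Continuous.matrix_det ?_)
  refine continuous_matrix fun i j => ?_
  exact ((continuous_apply i).comp (continuous_apply j.succ)).sub
    ((continuous_apply i).comp (continuous_apply 0))

/-- Normal form of a convex body: in suitable affine coordinates it contains `[0,1/n]^n` and is
contained in `[-1,1]^n`. -/
theorem exists_normal {n : ℕ} (K : Set (Fin n → ℝ)) (hK : IsCompact K)
    (hc : Convex ℝ K) (hi : (interior K).Nonempty) :
    ∃ (x0 : Fin n → ℝ) (M : Matrix (Fin n) (Fin n) ℝ), M.det ≠ 0 ∧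
      (∀ y : Fin n → ℝ, (∀ i, 0 ≤ y i) → ∑ i, y i ≤ 1 → x0 + M.mulVec y ∈ K) ∧
      (∀ y : Fin n → ℝ, x0 + M.mulVec y ∈ K → ∀ i, |y i| ≤ 1) := by
  classical
  have hS : IsCompact (Set.pi Set.univ (fun _ : Fin (n + 1) => K)) :=
    isCompact_univ_pi fun _ => hK
  obtain ⟨c, hc0⟩ := hi
  have hcK : c ∈ K := interior_subset hc0
  obtain ⟨x, hx, hmax⟩ := hS.exists_isMaxOn ⟨fun _ => c, fun _ _ => hcK⟩
    continuous_dmat_det.continuousOn
  have hxK : ∀ i, x i ∈ K := fun i => hx i (Set.mem_univ i)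
  have hmax' : ∀ y : Fin (n + 1) → (Fin n → ℝ), (∀ i, y i ∈ K) → |(dmat y).det| ≤ |(dmat x).det| :=
    fun y hy => hmax (a := y) (fun i _ => hy i)
  -- positivity
  have hdet : (dmat x).det ≠ 0 := by
    rw [mem_interior_iff_mem_nhds, Metric.mem_nhds_iff] at hc0
    obtain ⟨r, hr, hball⟩ := hc0
    have h1 := hmax' (Fin.cons c (fun j => c + Pi.single j (r / 2))) (by
      intro i
      refine Fin.cases ?_ (fun j => ?_) i
      · simpa using hcK
      · simp only [Fin.cons_succ]
        refine hball ?_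
        rw [Metric.mem_ball, dist_eq_norm, add_sub_cancel_left, Pi.norm_single]
        rw [Real.norm_of_nonneg (by positivity)]
        linarith)
    have h2 : dmat (Fin.cons c (fun j => c + Pi.single j (r / 2)) : Fin (n + 1) → (Fin n → ℝ)) =
        Matrix.diagonal (fun _ => r / 2) := by
      ext i j
      simp only [dmat, Matrix.of_apply, Fin.cons_succ, Fin.cons_zero, Pi.add_apply,
        add_sub_cancel_left, Matrix.diagonal_apply, Pi.single_apply]
    rw [h2, Matrix.det_diagonal, Finset.prod_const] at h1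
    have h3 : 0 < |(r / 2) ^ (Finset.univ : Finset (Fin n)).card| := abs_pos.2 (by positivity)
    have h4 := h3.trans_le h1
    exact abs_pos.1 h4
  refine ⟨x 0, dmat x, hdet, ?_, ?_⟩
  · intro y hy hsum
    rw [dmat_mulVec]
    have h1 : (1 - ∑ j, y j) • x 0 + ∑ j, y j • x j.succ =
        ∑ i : Fin (n + 1), (Fin.cons (1 - ∑ j, y j) y : Fin (n + 1) → ℝ) i • x i := by
      rw [Fin.sum_univ_succ]; simp
    rw [h1]
    refine hc.sum_mem (fun i _ => ?_) ?_ (fun i _ => hxK i)
    · refine Fin.cases ?_ (fun j => ?_) i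
      · simp; linarith
      · simpa using hy j
    · rw [Fin.sum_univ_succ]; simp
  · intro y hy i
    set v := x 0 + (dmat x).mulVec y with hv
    have h1 := hmax' (Function.update x i.succ v) (by
      intro j
      rcases eq_or_ne j i.succ with rfl | h
      · simpa using hy
      · rw [Function.update_of_ne h]; exact hxK j)
    have h2 : dmat (Function.update x i.succ v) =
        (dmat x).updateCol i ((dmat x).mulVec y) := by
      ext k j
      simp only [dmat, Matrix.of_apply, Matrix.updateCol_apply]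
      rw [Function.update_of_ne (Fin.succ_ne_zero i).symm]
      split_ifs with h
      · subst h
        simp [hv, dmat]
      · rw [Function.update_of_ne (fun h' => h (Fin.succ_injective _ h'))]
    rw [h2] at h1
    have h3 : ((dmat x).updateCol i ((dmat x).mulVec y)).det = (dmat x).det * y i := by
      have h4 := Matrix.cramer_apply (dmat x) ((dmat x).mulVec y) i
      rw [← h4]
      have h5 := Matrix.mulVec_cramer (dmat x) ((dmat x).mulVec y)
      have h6 : (dmat x).cramer ((dmat x).mulVec y) = (dmat x).det • y := by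
        rw [Matrix.cramer_eq_adjugate_mulVec, Matrix.mulVec_mulVec, Matrix.adjugate_mul,
          Matrix.smul_mulVec, Matrix.one_mulVec]
      rw [h6]; simp
    rw [h3, abs_mul] at h1
    have h7 : 0 < |(dmat x).det| := abs_pos.2 hdet
    nlinarith

/-- The body in the new coordinates. -/
def pull {n : ℕ} (K : Set (Fin n → ℝ)) (x0 : Fin n → ℝ) (M : Matrix (Fin n) (Fin n) ℝ) :
    Set (Fin n → ℝ) := {y | x0 + M.mulVec y ∈ K}

theorem pull_eq_preimage {n : ℕ} (K : Set (Fin n → ℝ)) (x0 : Fin n → ℝ)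
    (M : Matrix (Fin n) (Fin n) ℝ) :
    pull K x0 M = (Matrix.toLin' M) ⁻¹' ((fun v => x0 + v) ⁻¹' K) := rfl

theorem volume_pull {n : ℕ} (K : Set (Fin n → ℝ)) (x0 : Fin n → ℝ)
    (M : Matrix (Fin n) (Fin n) ℝ) (hM : M.det ≠ 0) :
    (volume (pull K x0 M)).toReal = (volume K).toReal / |M.det| := by
  rw [pull_eq_preimage, Measure.addHaar_preimage_linearMap volume (by rwa [LinearMap.det_toLin']),
    LinearMap.det_toLin', measure_preimage_add, ENNReal.toReal_mul,
    ENNReal.toReal_ofReal (abs_nonneg _), abs_inv, div_eq_inv_mul]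

theorem cov_of_pull {n : ℕ} {K : Set (Fin n → ℝ)} {x0 : Fin n → ℝ}
    {M : Matrix (Fin n) (Fin n) ℝ} (hM : M.det ≠ 0) {D : ℝ} (h : Cov n (pull K x0 M) D) :
    Cov n K D := by
  obtain ⟨g, hg, hcov, hD⟩ := h
  refine ⟨M * g, by rw [Matrix.det_mul]; exact mul_ne_zero hM hg, fun x => ?_, ?_⟩
  · obtain ⟨z, hz⟩ := hcov (M⁻¹.mulVec (x - x0))
    refine ⟨z, ?_⟩
    have h1 : x0 + M.mulVec (M⁻¹.mulVec (x - x0) - g.mulVec (fun i => (z i : ℝ))) ∈ K := hz
    have hu : IsUnit M.det := isUnit_iff_ne_zero.2 hM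
    rw [Matrix.mulVec_sub, Matrix.mulVec_mulVec, Matrix.mul_nonsing_inv _ hu, Matrix.one_mulVec,
      Matrix.mulVec_mulVec] at h1
    have h2 : x0 + (x - x0 - (M * g).mulVec (fun i => (z i : ℝ))) =
        x - (M * g).mulVec (fun i => (z i : ℝ)) := by abel
    rwa [h2] at h1
  · rw [volume_pull K x0 M hM] at hD
    rw [Matrix.det_mul, abs_mul, ← div_div]
    exact hD

/-- Cubic lattice for a normalised body. -/
theorem cov_of_normal {n : ℕ} (hn : 1 ≤ n) (K : Set (Fin n → ℝ))
    (h1 : ∀ y : Fin n → ℝ, (∀ i, 0 ≤ y i) → ∑ i, y i ≤ 1 → y ∈ K)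
    (h2 : ∀ y ∈ K, ∀ i, |y i| ≤ 1) : Cov n K ((2 * n : ℝ) ^ n) := by
  have hn' : (0:ℝ) < n := by exact_mod_cast hn
  refine ⟨(1 / (n:ℝ)) • 1, ?_, fun x => ?_, ?_⟩
  · rw [Matrix.det_smul, Matrix.det_one, mul_one]
    positivity
  · refine ⟨fun i => ⌊n * x i⌋, ?_⟩
    refine h1 _ (fun i => ?_) ?_
    · simp only [Matrix.smul_mulVec, Matrix.one_mulVec, Pi.sub_apply, Pi.smul_apply, smul_eq_mul]
      have := Int.floor_le ((n:ℝ) * x i)
      rw [one_div, sub_nonneg, inv_mul_le_iff₀ hn']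
      exact this
    · calc ∑ i, (x - ((1 / (n:ℝ)) • (1 : Matrix (Fin n) (Fin n) ℝ)).mulVec
            (fun i => ((⌊(n:ℝ) * x i⌋ : ℤ) : ℝ))) i ≤ ∑ _i : Fin n, 1 / (n:ℝ) := by
            refine Finset.sum_le_sum fun i _ => ?_
            simp only [Matrix.smul_mulVec, Matrix.one_mulVec, Pi.sub_apply, Pi.smul_apply,
              smul_eq_mul]
            have := Int.lt_floor_add_one ((n:ℝ) * x i)
            rw [sub_le_iff_le_add, ← mul_one_add, one_div, ← div_eq_inv_mul, le_div_iff₀ hn']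
            linarith
        _ = 1 := by
            rw [Finset.sum_const, Finset.card_univ, Fintype.card_fin, nsmul_eq_mul]
            field_simp
        _ ≤ 1 := le_refl _
  · have hsub : K ⊆ Set.Icc (fun _ => (-1:ℝ)) (fun _ => 1) := fun y hy =>
      ⟨fun i => (abs_le.1 (h2 y hy i)).1, fun i => (abs_le.1 (h2 y hy i)).2⟩
    have hvol : (volume K).toReal ≤ 2 ^ n := by
      have h3 : volume (Set.Icc (fun _ : Fin n => (-1:ℝ)) (fun _ => 1)) = ENNReal.ofReal (2 ^ n) := by
        rw [Real.volume_Icc_pi]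
        simp only [Finset.prod_const, Finset.card_univ, Fintype.card_fin]
        rw [← ENNReal.ofReal_pow (by norm_num)]
        norm_num
      refine ENNReal.toReal_le_of_le_ofReal (by positivity) ?_
      rw [← h3]; exact measure_mono hsub
    rw [Matrix.det_smul, Matrix.det_one, mul_one, Fintype.card_fin,
      abs_of_pos (by positivity)]
    rw [div_le_iff₀ (by positivity), ← mul_pow]
    have : 2 * (n:ℝ) * (1 / n) = 2 := by field_simp
    rw [this]; exact hvol

/-- Reduction to large dimension and normalised bodies. -/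
theorem result_of_large
    (H : ∃ C : ℝ, ∃ n₀ : ℕ, ∀ n : ℕ, n₀ ≤ n → ∀ K : Set (Fin n → ℝ),
      IsCompact K → Convex ℝ K →
      (∀ y : Fin n → ℝ, (∀ i, 0 ≤ y i) → ∑ i, y i ≤ 1 → y ∈ K) →
      (∀ y ∈ K, ∀ i, |y i| ≤ 1) → Cov n K (C * n * Real.log n)) :
    ∃ C : ℝ, ∀ (n : ℕ), 2 ≤ n → ∀ (K : Set (Fin n → ℝ)),
      IsCompact K → Convex ℝ K → (interior K).Nonempty →
        ∃ g : Matrix (Fin n) (Fin n) ℝ, g.det ≠ 0 ∧
          (∀ x : Fin n → ℝ, ∃ z : Fin n → ℤ, x - g.mulVec (fun i => (z i : ℝ)) ∈ K) ∧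
          (volume K).toReal / |g.det| ≤ C * n * Real.log n := by
  obtain ⟨C, n₀, H⟩ := H
  refine ⟨max C ((2 * (n₀ : ℝ)) ^ n₀ / Real.log 2), fun n hn K hK hc hi => ?_⟩
  obtain ⟨x0, M, hM, h1, h2⟩ := exists_normal K hK hc hi
  have hn2 : (2:ℝ) ≤ n := by exact_mod_cast hn
  have hlog2 : 0 < Real.log 2 := Real.log_pos (by norm_num)
  have hlog : Real.log 2 ≤ Real.log n := Real.log_le_log (by norm_num) hn2
  have hlog0 : 0 < Real.log n := hlog2.trans_le hlog
  suffices h : Cov n K (max C ((2 * (n₀ : ℝ)) ^ n₀ / Real.log 2) * n * Real.log n) from h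
  refine cov_of_pull hM (x0 := x0) ?_
  have hKc : IsCompact (pull K x0 M) := by
    have h3 : pull K x0 M = (fun v => M⁻¹.mulVec (v - x0)) '' K := by
      have hu : IsUnit M.det := isUnit_iff_ne_zero.2 hM
      ext y
      constructor
      · intro hy
        refine ⟨x0 + M.mulVec y, hy, ?_⟩
        simp only [add_sub_cancel_left, Matrix.mulVec_mulVec, Matrix.nonsing_inv_mul _ hu,
          Matrix.one_mulVec]
      · rintro ⟨v, hv, rfl⟩
        show x0 + M.mulVec _ ∈ K
        rw [Matrix.mulVec_mulVec, Matrix.mul_nonsing_inv _ hu, Matrix.one_mulVec]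
        simpa using hv
    rw [h3]
    refine hK.image ?_
    have : Continuous fun w : Fin n → ℝ => M⁻¹.mulVec w := (Matrix.toLin' M⁻¹).continuous_of_finiteDimensional
    exact this.comp (continuous_id.sub continuous_const)
  have hKv : Convex ℝ (pull K x0 M) := by
    rw [pull_eq_preimage]
    exact (hc.translate_preimage_right x0).linear_preimage _
  rcases le_or_gt n₀ n with hnn | hnn
  · refine (H n hnn _ hKc hKv h1 h2).mono ?_
    have := le_max_left C ((2 * (n₀ : ℝ)) ^ n₀ / Real.log 2)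
    gcongr
  · refine (cov_of_normal (by omega) _ h1 h2).mono ?_
    have h4 : (n:ℝ) ≤ n₀ := by exact_mod_cast hnn.le
    have h5 : (2 * (n:ℝ)) ^ n ≤ (2 * (n₀:ℝ)) ^ n₀ := by
      calc (2 * (n:ℝ)) ^ n ≤ (2 * (n₀:ℝ)) ^ n := by gcongr
        _ ≤ (2 * (n₀:ℝ)) ^ n₀ := by
          refine pow_le_pow_right₀ ?_ hnn.le
          linarith
    refine h5.trans ?_
    have h6 := le_max_right C ((2 * (n₀ : ℝ)) ^ n₀ / Real.log 2)
    calc (2 * (n₀:ℝ)) ^ n₀ = ((2 * (n₀ : ℝ)) ^ n₀ / Real.log 2) * 1 * Real.log 2 := by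
          field_simp
      _ ≤ max C ((2 * (n₀ : ℝ)) ^ n₀ / Real.log 2) * n * Real.log n := by
          have h7 : 0 ≤ (2 * (n₀ : ℝ)) ^ n₀ / Real.log 2 := by positivity
          have h8 : (1:ℝ) ≤ n := by linarith
          gcongr

end Crest.Agent.R225.L
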