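import Mathlib

/-! Row 225, S0348 side: shared definitions (helper514).  FROZEN. -/

set_option autoImplicit false

open MeasureTheory Finset
open scoped BigOperators

namespace Crest.Agent.R225.L

/-! ### Product Bernoulli measure -/
section bern
variable {α : Type*} [Fintype α] [DecidableEq α]

/-- Weight of the configuration `R` when atom `a` is included independently with
probability `1 - exp (-μ a)`. -/
noncomputable def wt (μ : α → ℝ) (R : Finset α) : ℝ :=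
  (∏ a ∈ R, (1 - Real.exp (-μ a))) * ∏ a ∈ Rᶜ, Real.exp (-μ a)

open Classical in
/-- Probability of an event under the product Bernoulli measure. -/
noncomputable def Pr (μ : α → ℝ) (A : Finset α → Prop) : ℝ :=
  ∑ R : Finset α, if A R then wt μ R else 0

end bern

/-! ### Geometry -/

/-- Euclidean space. -/
abbrev E (n : ℕ) := EuclideanSpace ℝ (Fin n)

/-- Relative height of the caps. -/
noncomputable def sc : ℝ := 1 - 1 / 10 ^ 6

/-- The grid vector `k / (2 n)`. -/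
noncomputable def gz {n : ℕ} (k : Fin n → ℤ) : E n :=
  WithLp.toLp 2 (fun i => (k i : ℝ) / (2 * n))

/-- The cap of the unit ball in direction `e` at height `a`. -/
def Cap {n : ℕ} (e : E n) (a : ℝ) : Set (E n) := {u | ‖u‖ ≤ 1 ∧ a < inner ℝ u e}

/-- `u` kills the vector `z` (of norm at most `√n`). -/
def Kills {n : ℕ} (u z : E n) : Prop := sc * √(n : ℝ) < inner ℝ u z

/-- Depth of the grid vector `k` below the sphere of radius `√n`. -/
noncomputable def dep {n : ℕ} (k : Fin n → ℤ) : ℝ :=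
  (n : ℝ) * Real.log (√(n : ℝ) / ‖(gz k : E n)‖)

/-- Grid points of the window `[0,1)^n`. -/
noncomputable def Win (n : ℕ) : Finset (Fin n → ℤ) := Fintype.piFinset (fun _ => Finset.Ico (0 : ℤ) (2 * n))

open Classical in
/-- The weighted local count at `y`. -/
noncomputable def Qf {n : ℕ} (X : Finset (Fin n → ℤ)) (y : Fin n → ℤ) : ℝ :=
  ∑ k ∈ Finset.range (n + 1), (2 : ℝ) ^ k *
    ((X.filter (fun x => ‖(gz (y - x) : E n)‖ ≤ Real.exp (-(k : ℝ) / n) * √(n : ℝ))).card : ℝ)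

/-- Volume of the Euclidean ball of radius `√n`. -/
noncomputable def volB (n : ℕ) : ℝ := volume.real (Metric.closedBall (0 : E n) √(n : ℝ))

/-- The properties of a finite cap system used in the proof. -/
structure CapSys (n : ℕ) (α : Type) [Fintype α] [DecidableEq α] where
  μ : α → ℝ
  u : α → E n
  μ_nonneg : ∀ a, 0 ≤ μ a
  u_norm : ∀ a, ‖u a‖ ≤ 1
  /-- volume of the body -/
  upper : ∀ z : E n, ‖z‖ ≤ (1 - 4 / (n : ℝ)) * √(n : ℝ) → ∀ T : Finset α,
    (∀ a ∈ T, Kills (u a) z) → ∑ a ∈ T, μ a ≤ 1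
  /-- one point lower bound: some finite set of caps killing `k` has large measure -/
  lower : ∀ (k : Fin n → ℤ) (t : ℝ), 0 ≤ t → t ≤ 10 * Real.log n → ‖(gz k : E n)‖ ≤ √(n : ℝ) →
    Real.exp (-t / n) * √(n : ℝ) ≤ ‖(gz k : E n)‖ →
    ∃ T : Finset α, (∀ a, a ∈ T ↔ Kills (u a) (gz k)) ∧ Real.exp (-(4 * 10 ^ 6) * t) ≤ ∑ a ∈ T, μ a
  /-- two point upper bound -/
  two : ∀ k k' : Fin n → ℤ, ‖(gz k : E n)‖ ≤ √(n : ℝ) → ‖(gz k' : E n)‖ ≤ √(n : ℝ) →
    ∀ T : Finset α, (∀ a ∈ T, Kills (u a) (gz k) ∧ Kills (u a) (gz k')) →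
      ∑ a ∈ T, μ a ≤ (n : ℝ) ^ 2 * Real.exp (-(10 ^ 4) * ‖(gz k : E n) - gz k'‖ ^ 2)
  /-- a cluster is killed by one cap with polynomial measure -/
  cluster : ∀ (S : Finset (Fin n → ℤ)) (c : Fin n → ℤ), c ∈ S → S.card ≤ n ^ 2 →
    (∀ z ∈ S, ‖(gz z : E n)‖ ≤ √(n : ℝ) ∧ (1 - 2000 * Real.log n / n) * √(n : ℝ) ≤ ‖(gz z : E n)‖ ∧
      ‖(gz z : E n) - gz c‖ ^ 2 ≤ 2000 * Real.log n) →
    ∃ T : Finset α, (∀ a ∈ T, ∀ z ∈ S, Kills (u a) (gz z)) ∧
      (n : ℝ) ^ (-(10 : ℝ) ^ 11) ≤ ∑ a ∈ T, μ a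

end Crest.Agent.R225.L
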