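import Crest.Agent.R225.L.Defs

/-! Row 225, S0348 side: FROZEN interface (helper514).  Never imported by final proofs.
Each worker proves the statement verbatim in his own module, namespace `Crest.Agent.R225.L`. -/

set_option autoImplicit false

open MeasureTheory Finset Filter
open scoped BigOperators

namespace Crest.Agent.R225.L.Iface

/-! ## T1  Janson.lean (helper543) -/

section
variable {α : Type*} [Fintype α] [DecidableEq α]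

/-- **Generalised Janson inequality for hitting events.** -/
theorem gen_janson {ι κ : Type*} [DecidableEq ι] [DecidableEq κ] (μ : α → ℝ) (hμ : ∀ a, 0 ≤ μ a)
    (G : Finset ι) (hG : G.Nonempty) (J : ι → Finset κ) (U : ι → κ → Finset α)
    (p : ℝ) (hp : 0 < p)
    (hpy : ∀ y ∈ G, p ≤ ∏ j ∈ J y, (1 - Real.exp (-∑ b ∈ U y j, μ b)))
    (M : ℝ) (hM1 : 1 ≤ M)
    (hM : ∀ y ∈ G, ∀ a : α, ∏ j ∈ (J y).filter (fun j => a ∈ U y j),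
      (1 - Real.exp (-∑ b ∈ U y j, μ b))⁻¹ ≤ M)
    (Φ : ι → ι → ℝ)
    (hΦ : ∀ y ∈ G, ∀ y' ∈ G, 1 / p ≤ Φ y y' ∨
      Real.exp (M ^ 2 * ∑ a ∈ ((J y).biUnion (U y)) ∩ ((J y').biUnion (U y')), μ a) - 1 ≤ Φ y y')
    (Δ : ℝ) (hΔ : 0 < Δ)
    (hsum : (∑ y ∈ G, ∑ y' ∈ G, Φ y y') ≤ Δ * (G.card : ℝ) ^ 2) :
    Pr μ (fun R => ∀ y ∈ G, ∃ j ∈ J y, Disjoint R (U y j)) ≤ Real.exp (-1 / Δ) := by
  sorry

end

/-! ## T2  Ball.lean : volumes of caps of the unit ball -/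

theorem cap_rot {n : ℕ} (e e' : E n) (he : ‖e‖ = 1) (he' : ‖e'‖ = 1) (a : ℝ) :
    volume.real (Cap e a) = volume.real (Cap e' a) := by
  sorry

/-- homothety with centre `e` and ratio `1 - κ` -/
theorem cap_homothety {n : ℕ} (e : E n) (he : ‖e‖ = 1) (a κ : ℝ) (h0 : 0 ≤ κ) (h1 : κ ≤ 1)
    (ha : a ≤ 1) :
    (1 - κ) ^ n * volume.real (Cap e a) ≤ volume.real (Cap e (a + κ * (1 - a))) := by
  sorry

/-- a cap lies in the ball with centre `a e` and radius `√(1-a^2)` -/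
theorem cap_upper {n : ℕ} (e : E n) (he : ‖e‖ = 1) (a : ℝ) (h0 : 0 ≤ a) (h1 : a ≤ 1) :
    volume.real (Cap e a) ≤ √(1 - a ^ 2) ^ n * volume.real (Metric.closedBall (0 : E n) 1) := by
  sorry

/-- with `r = √(1-a^2)`, `r' = (1-1/n) r`, `θ = r/(8n)` the cap contains the image of the open ball of
radius `r'` under `x ↦ (a + θ r') e + x - (1-θ) ⟪x,e⟫ e` -/
theorem cap_lower {n : ℕ} (hn : 2 ≤ n) (e : E n) (he : ‖e‖ = 1) (a : ℝ) (h0 : 0 ≤ a) (h1 : a < 1) :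
    √(1 - a ^ 2) / (32 * n) * (√(1 - a ^ 2) ^ n * volume.real (Metric.closedBall (0 : E n) 1)) ≤
      volume.real (Cap e a) := by
  sorry

/-- two orthogonal height constraints give a deeper cap -/
theorem two_caps {n : ℕ} (e f : E n) (he : ‖e‖ = 1) (hf : ‖f‖ = 1) (hef : inner ℝ e f = (0 : ℝ))
    (a b : ℝ) (ha : 0 < a) (hb : 0 < b) (hab : a ^ 2 + b ^ 2 ≤ 1) :
    volume.real {u : E n | ‖u‖ ≤ 1 ∧ a < inner ℝ u e ∧ b < inner ℝ u f} ≤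
      √(1 - a ^ 2 - b ^ 2) ^ n * volume.real (Metric.closedBall (0 : E n) 1) := by
  sorry

/-! ## T3  CapVol.lean : consequences in the scale `‖z‖ ≤ √n` (uses T2 only) -/

theorem kill_upper {n : ℕ} (hn : 1 ≤ n) (e z : E n) (he : ‖e‖ = 1) (hz : ‖z‖ ≤ √(n : ℝ)) :
    volume.real {u : E n | ‖u‖ ≤ 1 ∧ Kills u z} ≤ volume.real (Cap e sc) := by
  sorry

theorem kill_lower : ∃ n₀ : ℕ, ∀ n ≥ n₀, ∀ (e z : E n) (t : ℝ), ‖e‖ = 1 → 0 ≤ t →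
    t ≤ 10 * Real.log n → ‖z‖ ≤ √(n : ℝ) → Real.exp (-t / n) * √(n : ℝ) ≤ ‖z‖ →
    Real.exp (-(4 * 10 ^ 6) * t) * volume.real (Cap e sc) ≤
      volume.real {u : E n | ‖u‖ ≤ 1 ∧ Kills u z} := by
  sorry

theorem kill_two : ∃ n₀ : ℕ, ∀ n ≥ n₀, ∀ (e z z' : E n), ‖e‖ = 1 → ‖z‖ ≤ √(n : ℝ) →
    ‖z'‖ ≤ √(n : ℝ) →
    volume.real {u : E n | ‖u‖ ≤ 1 ∧ Kills u z ∧ Kills u z'} ≤
      (n : ℝ) ^ 2 * Real.exp (-(10 ^ 4) * ‖z - z'‖ ^ 2) * volume.real (Cap e sc) := by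
  sorry

/-! ## T4  ClusterVol.lean : one cap kills a whole cluster (uses T2 only) -/

theorem kill_cluster : ∃ n₀ : ℕ, ∀ n ≥ n₀, ∀ (e : E n) (S : Finset (E n)) (c : E n), ‖e‖ = 1 →
    c ∈ S → S.card ≤ n ^ 2 →
    (∀ z ∈ S, ‖z‖ ≤ √(n : ℝ) ∧ (1 - 2000 * Real.log n / n) * √(n : ℝ) ≤ ‖z‖ ∧
      ‖z - c‖ ^ 2 ≤ 2000 * Real.log n) →
    (n : ℝ) ^ (-(10 : ℝ) ^ 11) * volume.real (Cap e sc) ≤
      volume.real {u : E n | ‖u‖ ≤ 1 ∧ ∀ z ∈ S, Kills u z} := by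
  sorry

/-! ## T5  System.lean : the finite cap system (uses T3, T4) -/

theorem exists_capSys : ∃ n₀ : ℕ, ∀ n ≥ n₀, ∃ (α : Type) (_ : Fintype α) (_ : DecidableEq α),
    Nonempty (CapSys n α) := by
  sorry

/-! ## T6  Single.lean : the requirements of one point `y` (uses only the fields of `CapSys`) -/

theorem single : ∃ n₀ : ℕ, ∀ n ≥ n₀, ∀ (α : Type) [Fintype α] [DecidableEq α] (C : CapSys n α)
    (S : Finset (Fin n → ℤ)),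
    (∀ z ∈ S, ‖(gz z : E n)‖ ≤ √(n : ℝ) ∧ 0 < ‖(gz z : E n)‖ ∧ dep z ≤ 3 * Real.log n) →
    (S.card : ℝ) ≤ n * (Real.log n) ^ 2 →
    ∃ (J : Finset (Finset (Fin n → ℤ) ⊕ (Fin n → ℤ)))
      (U : Finset (Fin n → ℤ) ⊕ (Fin n → ℤ) → Finset α),
      (∀ z ∈ S, ∃ j ∈ J, ∀ a ∈ U j, Kills (C.u a) (gz z)) ∧
      (∀ j ∈ J, ∀ a ∈ U j, ∃ z ∈ S, Kills (C.u a) (gz z)) ∧
      Real.exp (-(5 * 10 ^ 6 * ∑ z ∈ S, (1 + dep z)) - (n : ℝ) ^ (0.6 : ℝ)) ≤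
        ∏ j ∈ J, (1 - Real.exp (-∑ b ∈ U j, C.μ b)) ∧
      ∀ a : α, ∏ j ∈ J.filter (fun j => a ∈ U j), (1 - Real.exp (-∑ b ∈ U j, C.μ b))⁻¹ ≤
        Real.exp ((n : ℝ) ^ (0.6 : ℝ)) := by
  sorry

/-! ## T7  GridSum.lean -/

theorem grid_gauss (q : ℕ) (hq : 0 < q) (l p : ℝ) (hl : 0 < l) :
    ∑ j ∈ Finset.Ico (0 : ℤ) q, Real.exp (-l * ((j : ℝ) / q - p) ^ 2) ≤ q * (4 / √l) + 2 := by
  sorry

theorem win_gauss {n : ℕ} (hn : 1 ≤ n) (l : ℝ) (hl : 0 < l) (w : Fin n → ℤ) :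
    ∑ y ∈ Win n, Real.exp (-l * ‖(gz (y - w) : E n)‖ ^ 2) ≤ ((2 * n) * (4 / √l) + 2) ^ n := by
  sorry

theorem win_near {n : ℕ} (hn : 1 ≤ n) (l r : ℝ) (hl : 0 < l) (w : Fin n → ℤ) :
    (((Win n).filter (fun y => ‖(gz (y - w) : E n)‖ ^ 2 ≤ r)).card : ℝ) ≤
      Real.exp (l * r) * ((2 * n) * (4 / √l) + 2) ^ n := by
  sorry

/-- elementary facts on `Qf` -/
theorem qf_facts : ∃ n₀ : ℕ, ∀ n ≥ n₀, ∀ (X : Finset (Fin n → ℤ)) (y : Fin n → ℤ),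
    Qf X y ≤ n * (Real.log n) ^ 2 →
    let S := (X.filter (fun x => ‖(gz (y - x) : E n)‖ ≤ √(n : ℝ))).image (fun x => y - x)
    (∀ z ∈ S, ‖(gz z : E n)‖ ≤ √(n : ℝ) ∧ 0 < ‖(gz z : E n)‖ ∧ 0 ≤ dep z ∧ dep z ≤ 3 * Real.log n) ∧
    (S.card : ℝ) ≤ Qf X y ∧ ∑ z ∈ S, (1 + dep z) ≤ 2 * Qf X y := by
  sorry

/-! ## T8  Fixed.lean : one configuration (uses T1, T6, T7) -/

theorem fixed : ∃ n₀ : ℕ, ∀ n ≥ n₀, ∀ (α : Type) [Fintype α] [DecidableEq α] (C : CapSys n α)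
    (X : Finset (Fin n → ℤ)), (X.card : ℝ) ≤ 3 ^ n * (n : ℝ) ^ 2 →
    ∑ y ∈ Win n, Qf X y ≤ 1 / 10 ^ 9 * (n * Real.log n) * (2 * (n : ℝ)) ^ n →
    Pr C.μ (fun R => ∀ y ∈ Win n, ∃ x ∈ X, ‖(gz (y - x) : E n)‖ ≤ √(n : ℝ) ∧
      ∀ a ∈ R, ¬ Kills (C.u a) (gz (y - x))) ≤ Real.exp (-(4 : ℝ) ^ n) := by
  sorry

/-! ## T9  Body.lean : union bound over the configurations + volume (uses T5, T8) -/

theorem exists_capBody : ∃ n₀ : ℕ, ∀ n ≥ n₀, ∃ Rs : Finset (E n), (∀ u ∈ Rs, ‖u‖ ≤ 1) ∧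
    1 / 2000 * volB n ≤
      volume.real {x : E n | ‖x‖ ≤ √(n : ℝ) ∧ ∀ u ∈ Rs, |inner ℝ u x| ≤ sc * √(n : ℝ)} ∧
    ∀ X : Finset (Fin n → ℤ), (X.card : ℝ) ≤ 3 ^ n * (n : ℝ) ^ 2 →
      ∑ y ∈ Win n, Qf X y ≤ 1 / 10 ^ 9 * (n * Real.log n) * (2 * (n : ℝ)) ^ n →
      ∃ y ∈ Win n, ∀ x ∈ X, ‖(gz (y - x) : E n)‖ ≤ √(n : ℝ) → ∃ u ∈ Rs, Kills u (gz (y - x)) := by
  sorry

/-! ## T10  Window.lean : averaging -/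

theorem window : ∃ n₀ : ℕ, ∀ n ≥ n₀, ∀ X : Set (Fin n → ℝ),
    (∀ R : ℝ, (X ∩ {x | ∀ i, |x i| ≤ R}).Finite) → ∀ δ : ℝ, 0 < δ →
    (∀ᶠ R : ℝ in atTop, ((X ∩ {x | ∀ i, |x i| ≤ R}).ncard : ℝ) ≤ δ * (2 * R) ^ n) →
    ∃ (v : Fin n → ℤ) (X' : Finset (Fin n → ℤ)),
      (X'.card : ℝ) ≤ 3 ^ n * (4 * (δ * volB n)) ∧
      ∑ y ∈ Win n, Qf X' y ≤ 50 * (δ * volB n) * (2 * (n : ℝ)) ^ n ∧
      ∀ x ∈ X, ∀ y ∈ Win n,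
        ‖(gz (y - fun i => ⌊2 * (n : ℝ) * (x i - v i)⌋) : E n)‖ ≤ √(n : ℝ) →
        (fun i => ⌊2 * (n : ℝ) * (x i - v i)⌋) ∈ X' := by
  sorry

end Crest.Agent.R225.L.Iface
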