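import Mathlib

/-! Row 225, S0348 side: exact statement of the generalised Janson inequality (helper514).
    Frozen statement; the proof goes to Crest/Agent/R225/L/Janson.lean (helper543). -/

open Finset
open scoped BigOperators

namespace Crest.Agent.R225.L

variable {α : Type*} [Fintype α] [DecidableEq α]

/-- Weight of the configuration `R` when atom `a` is included independently with
probability `1 - exp (-μ a)`. -/
noncomputable def wt (μ : α → ℝ) (R : Finset α) : ℝ :=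
  (∏ a ∈ R, (1 - Real.exp (-μ a))) * ∏ a ∈ Rᶜ, Real.exp (-μ a)

open Classical in
/-- Probability of an event under the product Bernoulli measure. -/
noncomputable def Pr (μ : α → ℝ) (A : Finset α → Prop) : ℝ :=
  ∑ R : Finset α, if A R then wt μ R else 0

/-- **Generalised Janson inequality for hitting events.** `y ∈ G` occurs when the random set `R`
hits all the sets `U y j`, `j ∈ J y`. -/
theorem gen_janson {ι κ : Type*} [DecidableEq ι] [DecidableEq κ] (μ : α → ℝ) (hμ : ∀ a, 0 ≤ μ a)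
    (G : Finset ι) (hG : G.Nonempty) (J : ι → Finset κ) (U : ι → κ → Finset α)
    (p : ℝ) (hp : 0 < p)
    (hpy : ∀ y ∈ G, p ≤ ∏ j ∈ J y, (1 - Real.exp (-∑ b ∈ U y j, μ b)))
    (M : ℝ) (hM1 : 1 ≤ M)
    (hM : ∀ y ∈ G, ∀ a : α, ∏ j ∈ (J y).filter (fun j => a ∈ U y j),
      (1 - Real.exp (-∑ b ∈ U y j, μ b))⁻¹ ≤ M)
    (Φ : ι → ι → ℝ)
    (hΦ : ∀ y ∈ G, ∀ y' ∈ G, 1 / p ≤ Φ y y' ∨
      Real.exp (M ^ 2 * ∑ a ∈ ((J y).biUnion (U y)) ∩ ((J y').biUnion (U y')), μ a) - 1 ≤ Φ y y')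
    (Δ : ℝ) (hΔ : 0 < Δ)
    (hsum : (∑ y ∈ G, ∑ y' ∈ G, Φ y y') ≤ Δ * (G.card : ℝ) ^ 2) :
    Pr μ (fun R => ∀ y ∈ G, ∃ j ∈ J y, Disjoint R (U y j)) ≤ Real.exp (-1 / Δ) := by
  sorry

end Crest.Agent.R225.L
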